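import Vale.Agent.P038.H606.ML

/-! Reflexive relations, boundaries, and the comparison of the two minima. -/

set_option autoImplicit false

namespace Vale.Agent.P038.H606

open Finset

variable {V : Type*} [Fintype V]

/-- one step along `A` in the second coordinate -/
def cA (A R : V → V → Prop) (a b : V) : Prop := ∃ x, R a x ∧ A x b

/-- the number of new pairs -/
noncomputable def kap (A R : V → V → Prop) : ℕ := cnt fun a b => cA A R a b ∧ ¬ R a b

/-- the number of pairs plus the number of vertices -/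
noncomputable def KK (V : Type*) [Fintype V] : ℕ :=
  cnt (fun _ _ : V => True) + cnt (fun a b : V => a = b)

theorem cnt_sum (R : V → V → Prop) : cnt R = ∑ p : V × V, (open Classical in
    if R p.1 p.2 then 1 else 0) := by
  classical
  unfold cnt fp
  rw [Finset.card_filter]

theorem cnt_swap (R : V → V → Prop) : cnt (fun a b => R b a) = cnt R := by
  classical
  unfold cnt
  refine Finset.card_bij (fun p _ => (p.2, p.1)) ?_ ?_ ?_
  · rintro ⟨a, b⟩ hp
    have h1 : R b a := mem_fp.1 hp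
    exact mem_fp.2 h1
  · rintro ⟨a, b⟩ _ ⟨a', b'⟩ _ he
    simp only [Prod.mk.injEq] at he ⊢
    exact ⟨he.2, he.1⟩
  · rintro ⟨a, b⟩ hp
    have h1 : R a b := mem_fp.1 hp
    exact ⟨(b, a), mem_fp.2 h1, rfl⟩

theorem cnt_mono {R S : V → V → Prop} (h : ∀ a b, R a b → S a b) : cnt R ≤ cnt S := by
  unfold cnt
  exact Finset.card_le_card fun p hp => mem_fp.2 (h _ _ (mem_fp.1 hp))

theorem cnt_congr {R S : V → V → Prop} (h : ∀ a b, R a b ↔ S a b) : cnt R = cnt S :=
  le_antisymm (cnt_mono fun a b => (h a b).1) (cnt_mono fun a b => (h a b).2)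

theorem cnt_or {R S : V → V → Prop} (h : ∀ a b, R a b → ¬ S a b) :
    cnt (fun a b => R a b ∨ S a b) = cnt R + cnt S := by
  classical
  rw [cnt_sum, cnt_sum, cnt_sum, ← Finset.sum_add_distrib]
  refine Finset.sum_congr rfl fun p _ => ?_
  have := h p.1 p.2
  by_cases h1 : R p.1 p.2 <;> by_cases h2 : S p.1 p.2 <;> simp_all

theorem cnt_or_le (R S : V → V → Prop) :
    cnt (fun a b => R a b ∨ S a b) ≤ cnt R + cnt S := by
  classical
  rw [cnt_sum, cnt_sum, cnt_sum, ← Finset.sum_add_distrib]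
  refine Finset.sum_le_sum fun p _ => ?_
  by_cases h1 : R p.1 p.2 <;> by_cases h2 : S p.1 p.2 <;> simp_all

/-- two relations that meet exactly in the diagonal and cover everything -/
theorem cnt_pair {R S : V → V → Prop} (h : ∀ a b, R a b ∨ S a b)
    (h' : ∀ a b, (R a b ∧ S a b) ↔ a = b) : cnt R + cnt S = KK V := by
  classical
  unfold KK
  rw [cnt_sum, cnt_sum, cnt_sum, cnt_sum, ← Finset.sum_add_distrib, ← Finset.sum_add_distrib]
  refine Finset.sum_congr rfl fun p _ => ?_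
  obtain ⟨a, b⟩ := p
  have h1 := h a b
  have h2 := h' a b
  simp only
  by_cases h3 : R a b <;> by_cases h4 : S a b <;> by_cases h5 : a = b <;>
    first
      | (rw [if_pos h3, if_pos h4, if_pos trivial, if_pos h5])
      | (rw [if_pos h3, if_neg h4, if_pos trivial, if_neg h5])
      | (rw [if_neg h3, if_pos h4, if_pos trivial, if_neg h5])
      | tauto

theorem cnt_triple {B C : V → V → Prop} (hB : ∀ a, B a a) (hC : ∀ a, C a a)
    (h : ∀ a b, B a b → C b a → a = b) :
    cnt B + cnt C + cnt (fun a b => ¬ B a b ∧ ¬ C b a) = KK V := by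
  rw [← cnt_swap C, ← cnt_pair (R := B) (S := fun a b => C b a ∨ (¬ B a b ∧ ¬ C b a)),
    cnt_or]
  · ring
  · exact fun a b h1 h2 => h2.2 h1
  · intro a b
    tauto
  · intro a b
    constructor
    · rintro ⟨h1, h2 | h2⟩
      · exact h a b h1 h2
      · exact absurd h1 h2.1
    · rintro rfl
      exact ⟨hB a, Or.inl (hC a)⟩

theorem kap_add {A R : V → V → Prop} (hA : ∀ a, A a a) : kap A R + cnt R = cnt (cA A R) := by
  unfold kap
  rw [← cnt_or (fun a b h1 h2 => h1.2 h2)]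
  refine cnt_congr fun a b => ?_
  constructor
  · rintro (h | h)
    · exact h.1
    · exact ⟨b, h, hA b⟩
  · intro h
    by_cases h1 : R a b
    · exact Or.inr h1
    · exact Or.inl ⟨h, h1⟩

theorem cnt_row (a : V) (F : V → Prop) : cnt (fun p q => p = a ∧ F q) = (fs F).card := by
  classical
  unfold cnt
  refine (Finset.card_bij (fun q _ => (a, q)) ?_ ?_ ?_).symm
  · intro q hq
    exact mem_fp.2 ⟨rfl, mem_fs.1 hq⟩
  · intro q _ q' _ he
    exact (Prod.mk.inj he).2
  · rintro ⟨p, q⟩ hp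
    obtain ⟨h1, h2⟩ := mem_fp.1 hp
    simp only at h1 h2
    subst h1
    exact ⟨q, mem_fs.2 h2, rfl⟩

/-- inner pairs -/
def XX (A X Y : V → V → Prop) : Prop :=
  (∀ a, X a a) ∧ (∀ a, Y a a) ∧ ∀ a b, cA A X a b → cA A Y b a → a = b

/-- outer pairs -/
def BB (A B C : V → V → Prop) : Prop :=
  (∀ a b, A a b → B a b) ∧ (∀ a b, A a b → C a b) ∧ ∀ a b, B a b → C b a → a = b

/-- the undecided pairs -/
def UU (B C : V → V → Prop) (y a : V) : Prop := ¬ B y a ∧ ¬ C a y

/-- `a = b` or not `B b a` -/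
def Bs (B : V → V → Prop) (a b : V) : Prop := a = b ∨ ¬ B b a

/-- the left interior -/
def LI (A B : V → V → Prop) (b a : V) : Prop := ∀ y, A y b → B y a

/-- the first error set -/
def PP (A B C : V → V → Prop) (a b : V) : Prop := cA A (Bs B) a b ∧ ¬ cA A C a b

/-- the Hall condition from the minimality of `C` -/
theorem h1_of_min {A B C : V → V → Prop} (hA : ∀ a, A a a) (hBB : BB A B C)
    (hmin : ∀ C', BB A B C' → kap A C ≤ kap A C') (a : V) (Y : Finset V)
    (hY : ∀ y ∈ Y, UU B C y a) : Y.card ≤ (fs fun b => PP A B C a b ∧ ∃ y ∈ Y, A y b).card := by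
  classical
  set C' : V → V → Prop := fun p q => C p q ∨ (p = a ∧ q ∈ Y) with hC'
  have hBB' : BB A B C' := by
    refine ⟨hBB.1, fun p q h => Or.inl (hBB.2.1 p q h), ?_⟩
    rintro p q h1 (h2 | ⟨rfl, h2⟩)
    · exact hBB.2.2 p q h1 h2
    · exact absurd h1 (hY p h2).1
  have h1 := hmin C' hBB'
  have h2 := kap_add (R := C) hA
  have h3 := kap_add (R := C') hA
  have h4 : cnt C' = cnt C + Y.card := by
    rw [hC', cnt_or, cnt_row]
    · congr 2
      ext q
      simp [mem_fs]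
    · rintro p q h5 ⟨rfl, h6⟩
      exact (hY q h6).2 h5
  have h5 : cnt (cA A C') ≤ cnt (cA A C) +
      (fs fun b => PP A B C a b ∧ ∃ y ∈ Y, A y b).card := by
    rw [← cnt_row a]
    refine (cnt_mono ?_).trans (cnt_or_le _ _)
    rintro p q ⟨x, h6 | ⟨rfl, h6⟩, h7⟩
    · exact Or.inl ⟨x, h6, h7⟩
    · by_cases h8 : cA A C p q
      · exact Or.inl h8
      · exact Or.inr ⟨rfl, ⟨⟨x, Or.inr (hY x h6).1, h7⟩, h8⟩, x, h6, h7⟩
  omega

theorem LI_count {A B C : V → V → Prop} (hA : ∀ a, A a a) (hBB : BB A B C) :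
    cnt (LI A B) + cnt (cA A (Bs B)) = KK V := by
  rw [← cnt_swap (LI A B)]
  refine cnt_pair ?_ ?_
  · intro a b
    by_contra hcon
    push Not at hcon
    obtain ⟨h1, h2⟩ := hcon
    apply h1
    intro y hy
    by_contra h3
    exact h2 ⟨y, Or.inr h3, hy⟩
  · intro a b
    constructor
    · rintro ⟨h1, x, h2 | h2, h3⟩
      · subst h2
        have h4 : B b a := h1 b (hA b)
        exact (hBB.2.2 b a h4 (hBB.2.1 a b h3)).symm
      · exact absurd (h1 x h3) h2
    · rintro rfl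
      exact ⟨fun y hy => hBB.1 y a hy, a, Or.inl rfl, hA a⟩

omit [Fintype V] in
theorem XX_of_BB {A B C : V → V → Prop} (hA : ∀ a, A a a) (hBB : BB A B C) :
    XX A (LI A B) (LI A C) := by
  obtain ⟨hB, hC, hBC⟩ := hBB
  refine ⟨fun a y hy => hB y a hy, fun a y hy => hC y a hy, ?_⟩
  rintro a b ⟨x, h1, h2⟩ ⟨y, h3, h4⟩
  -- `LI A B a x`, `A x b`, `LI A C b y`, `A y a`
  have h5 : B y x := h1 y h4
  have h6 : C x y := h3 x h2
  have h7 := hBC y x h5 h6
  subst h7
  have h8 : B a y := h1 a (hA a)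
  have h9 : C b y := h3 b (hA b)
  have h10 : a = y := hBC a y h8 (hC y a h4)
  have h11 : y = b := hBC y b (hB y b h2) h9
  exact h10.trans h11

omit [Fintype V] in
theorem BB_symm {A B C : V → V → Prop} (h : BB A B C) : BB A C B :=
  ⟨h.2.1, h.1, fun a b h1 h2 => (h.2.2 b a h2 h1).symm⟩

/-- the comparison -/
theorem rot {A B C : V → V → Prop} (hA : ∀ a, A a a) (hBB : BB A B C)
    (hmin : ∀ B' C', BB A B' C' → kap A B + kap A C ≤ kap A B' + kap A C') :
    kap A (LI A B) + kap A (LI A C) ≤ kap A B + kap A C := by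
  have hmC : ∀ C', BB A B C' → kap A C ≤ kap A C' := by
    intro C' h
    have := hmin B C' h
    omega
  have hmB : ∀ B', BB A C B' → kap A B ≤ kap A B' := by
    intro B' h
    have := hmin B' C (BB_symm h)
    omega
  have hXX := XX_of_BB hA hBB
  have e1 := cnt_triple (B := B) (C := C) (fun a => hBB.1 a a (hA a))
    (fun a => hBB.2.1 a a (hA a)) hBB.2.2
  have e2 := LI_count hA hBB
  have e3 := LI_count hA (BB_symm hBB)
  have e4 := cnt_triple (B := cA A (LI A B)) (C := cA A (LI A C))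
    (fun a => ⟨a, hXX.1 a, hA a⟩) (fun a => ⟨a, hXX.2.1 a, hA a⟩) hXX.2.2
  have k1 := kap_add (R := B) hA
  have k2 := kap_add (R := C) hA
  have k3 := kap_add (R := LI A B) hA
  have k4 := kap_add (R := LI A C) hA
  have p1 : cnt (cA A (Bs B)) = cnt (cA A C) + cnt (PP A B C) := by
    rw [← cnt_or (fun a b h1 h2 => h2.2 h1)]
    refine cnt_congr fun a b => ?_
    constructor
    · intro h
      by_cases h1 : cA A C a b
      · exact Or.inl h1
      · exact Or.inr ⟨h, h1⟩
    · rintro (⟨x, h1, h2⟩ | h)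
      · refine ⟨x, ?_, h2⟩
        by_cases h3 : B x a
        · exact Or.inl (hBB.2.2 x a h3 h1).symm
        · exact Or.inr h3
      · exact h.1
  have p2 : cnt (cA A (Bs C)) = cnt (cA A B) + cnt (PP A C B) := by
    rw [← cnt_or (fun a b h1 h2 => h2.2 h1)]
    refine cnt_congr fun a b => ?_
    constructor
    · intro h
      by_cases h1 : cA A B a b
      · exact Or.inl h1
      · exact Or.inr ⟨h, h1⟩
    · rintro (⟨x, h1, h2⟩ | h)
      · refine ⟨x, ?_, h2⟩
        by_cases h3 : C x a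
        · exact Or.inl (hBB.2.2 a x h1 h3)
        · exact Or.inr h3
      · exact h.1
  have hh4 : ∀ B C : V → V → Prop, BB A B C → ∀ a b, PP A B C a b → ∃ y, A y b ∧ UU B C y a := by
    rintro B C hBB a b ⟨⟨x, h1, h2⟩, h3⟩
    refine ⟨x, h2, ?_, fun h4 => h3 ⟨x, h4, h2⟩⟩
    rcases h1 with h1 | h1
    · subst h1
      exact absurd ⟨a, hBB.2.1 a a (hA a), h2⟩ h3
    · exact h1
  have ml := main_lemma A (UU B C) (PP A B C) (PP A C B)
    (fun a Y hY => h1_of_min hA hBB hmC a Y hY)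
    (fun y Z hZ => h1_of_min hA (BB_symm hBB) hmB y Z (fun a ha => ⟨(hZ a ha).2, (hZ a ha).1⟩))
    (fun a b y z hyb haz h2 h1 =>
      ⟨fun h => h2.2 ⟨a, h, haz⟩, fun h => h1.2 ⟨y, h, hyb⟩⟩)
    (fun y z h => by
      obtain ⟨a, h1, h2⟩ := hh4 C B (BB_symm hBB) y z h
      exact ⟨a, h1, h2.2, h2.1⟩)
    (fun a b h => hh4 B C hBB a b h)
  have hT : cnt (fun b z => (∃ a, A a z ∧ PP A B C a b) ∧ ∃ y, A y b ∧ PP A C B y z) ≤
      cnt (fun b z => ¬ cA A (LI A B) b z ∧ ¬ cA A (LI A C) z b) := by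
    refine cnt_mono ?_
    rintro b z ⟨⟨a, haz, h1⟩, y, hyb, h2⟩
    constructor
    · rintro ⟨x, h3, h4⟩
      exact h2.2 ⟨x, h3 y hyb, h4⟩
    · rintro ⟨x, h3, h4⟩
      exact h1.2 ⟨x, h3 a haz, h4⟩
  have e1' : cnt (fun a b => ¬ B a b ∧ ¬ C b a) = cnt (UU B C) := rfl
  omega

end Vale.Agent.P038.H606
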