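import Mathlib

/-! Two families of maximal matchings and the counting inequality. -/

set_option autoImplicit false

namespace Vale.Agent.P038.H606

open Finset

variable {V : Type*} [Fintype V]

open Classical in
/-- the set of a predicate -/
noncomputable def fs (P : V → Prop) : Finset V := univ.filter P

theorem mem_fs {P : V → Prop} {v : V} : v ∈ fs P ↔ P v := by
  classical
  simp [fs]

open Classical in
/-- the set of a relation -/
noncomputable def fp (R : V → V → Prop) : Finset (V × V) := univ.filter fun p => R p.1 p.2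

theorem mem_fp {R : V → V → Prop} {p : V × V} : p ∈ fp R ↔ R p.1 p.2 := by
  classical
  simp [fp]

/-- the weight of a vertex -/
noncomputable def wt (v : V) : ℕ := 2 ^ (Fintype.equivFin V v : ℕ)

theorem wt_inj {S T : Finset V} (h : ∑ v ∈ S, wt v = ∑ v ∈ T, wt v) : S = T := by
  have e : ∀ S : Finset V, ∑ v ∈ S, wt v =
      ∑ i ∈ S.map ((Fintype.equivFin V).toEmbedding.trans Fin.valEmbedding), 2 ^ i := by
    intro S
    rw [Finset.sum_map]
    rfl
  rw [e, e] at h
  exact Finset.map_injective _ (Finset.geomSum_injective le_rfl h)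

/-- `f` matches the sources `S` into the targets `F` along `A` -/
def IsM (A : V → V → Prop) (S F : V → Prop) (f : V → V) : Prop :=
  (∀ y, S y → F (f y) ∧ A y (f y)) ∧ ∀ y y', S y → S y' → f y = f y' → y = y'

open Classical in
/-- the weight of a matching -/
noncomputable def wM (S : V → Prop) (f : V → V) : ℕ := ∑ y ∈ fs S, wt (f y)

open Classical in
theorem exists_max_M (A : V → V → Prop) (S F : V → Prop)
    (h : ∀ Y : Finset V, (∀ y ∈ Y, S y) →
      Y.card ≤ (fs fun b => F b ∧ ∃ y ∈ Y, A y b).card) :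
    ∃ f, IsM A S F f ∧ ∀ g, IsM A S F g → wM S g ≤ wM S f := by
  have h1 : ∃ f, IsM A S F f := by
    have hall := (Finset.all_card_le_biUnion_card_iff_exists_injective
      (fun y : {y // S y} => fs fun b => F b ∧ A y.1 b)).1 (by
        intro s
        have h2 := h (s.map (Function.Embedding.subtype S)) (by
          intro y hy
          obtain ⟨y', _, rfl⟩ := Finset.mem_map.1 hy
          exact y'.2)
        rw [Finset.card_map] at h2
        refine h2.trans (Finset.card_le_card ?_)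
        intro b hb
        obtain ⟨hb1, y, hy, hyb⟩ := mem_fs.1 hb
        obtain ⟨y', hy', rfl⟩ := Finset.mem_map.1 hy
        exact Finset.mem_biUnion.2 ⟨y', hy', mem_fs.2 ⟨hb1, hyb⟩⟩)
    obtain ⟨f, hf, hf'⟩ := hall
    refine ⟨fun y => if hy : S y then f ⟨y, hy⟩ else y, ?_, ?_⟩
    · intro y hy
      have h3 := mem_fs.1 (hf' ⟨y, hy⟩)
      simpa [hy] using h3
    · intro y y' hy hy' he
      simp only [hy, hy', dif_pos] at he
      exact congrArg Subtype.val (hf he)
  obtain ⟨f0, hf0⟩ := h1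
  obtain ⟨f, hf, hmax⟩ := Finset.exists_max_image (univ.filter fun f => IsM A S F f) (wM S)
    ⟨f0, Finset.mem_filter.2 ⟨Finset.mem_univ _, hf0⟩⟩
  exact ⟨f, (Finset.mem_filter.1 hf).2,
    fun g hg => hmax g (Finset.mem_filter.2 ⟨Finset.mem_univ _, hg⟩)⟩

/-- the vertices reached by alternating paths -/
inductive Rch (S2 : V → Prop) (f m : V → V) (b0 : V) : V → Prop
  | base : Rch S2 f m b0 b0
  | step (y : V) : S2 y → Rch S2 f m b0 (m y) → Rch S2 f m b0 (f y)

open Classical in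
/-- `p` on `Y`, `q` elsewhere -/
noncomputable def sw (Y : V → Prop) (p q : V → V) : V → V := fun y => if Y y then p y else q y

omit [Fintype V] in
theorem sw_pos {Y : V → Prop} {p q : V → V} {y : V} (h : Y y) : sw Y p q y = p y := if_pos h

omit [Fintype V] in
theorem sw_neg {Y : V → Prop} {p q : V → V} {y : V} (h : ¬ Y y) : sw Y p q y = q y := if_neg h

open Classical in
theorem swap_sum (S Y : V → Prop) (hYS : ∀ y, Y y → S y) (p q : V → V) :
    wM S (sw Y p q) + ∑ y ∈ fs Y, wt (q y) =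
      wM S q + ∑ y ∈ fs Y, wt (p y) := by
  unfold wM sw
  simp only [fs, Finset.sum_filter]
  rw [← Finset.sum_add_distrib, ← Finset.sum_add_distrib]
  refine Finset.sum_congr rfl fun y _ => ?_
  by_cases h : Y y
  · simp only [h, hYS y h, if_true]
    ring
  · simp only [h, if_false]

open Classical in
theorem mono (A : V → V → Prop) (S1 F1 S2 F2 : V → Prop) (f m : V → V)
    (hf : IsM A S1 F1 f) (hfm : ∀ g, IsM A S1 F1 g → wM S1 g ≤ wM S1 f)
    (hm : IsM A S2 F2 m) (hmm : ∀ g, IsM A S2 F2 g → wM S2 g ≤ wM S2 m)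
    (hF : ∀ b, F1 b → F2 b) (hX : ∀ y b, S2 y → F1 b → A y b → S1 y)
    (y0 : V) (hy0 : S2 y0) (hb0 : F1 (m y0)) : ∃ y, S1 y ∧ f y = m y0 := by
  by_contra hno
  push Not at hno
  have hOF : ∀ v, Rch S2 f m (m y0) v → F1 v := by
    intro v hv
    induction hv with
    | base => exact hb0
    | step y hy _ ih => exact (hf.1 y (hX y _ hy ih (hm.1 y hy).2)).1
  have hYS : ∀ y, S2 y → Rch S2 f m (m y0) (m y) → S1 y :=
    fun y hy hO => hX y _ hy (hOF _ hO) (hm.1 y hy).2
  have hback : ∀ y, S1 y → Rch S2 f m (m y0) (f y) → S2 y ∧ Rch S2 f m (m y0) (m y) := by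
    intro y hy hOy
    have h0 : ∀ v, Rch S2 f m (m y0) v →
        v = m y0 ∨ ∃ y', S2 y' ∧ Rch S2 f m (m y0) (m y') ∧ v = f y' := by
      intro v hv
      cases hv with
      | base => exact Or.inl rfl
      | step y' h1 h2 => exact Or.inr ⟨y', h1, h2, rfl⟩
    rcases h0 _ hOy with h | ⟨y', h1, h2, h3⟩
    · exact absurd h (hno y hy)
    · have h4 := hf.2 y y' hy (hYS y' h1 h2) h3
      subst h4
      exact ⟨h1, h2⟩
  set Y : V → Prop := fun y => S2 y ∧ Rch S2 f m (m y0) (m y) with hY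
  have hf' : IsM A S1 F1 (sw Y m f) := by
    constructor
    · intro y hy
      by_cases h : Y y
      · rw [sw_pos h]
        exact ⟨hOF _ h.2, (hm.1 y h.1).2⟩
      · rw [sw_neg h]
        exact hf.1 y hy
    · intro y y' hy hy' he
      by_cases h : Y y <;> by_cases h' : Y y' <;>
        simp only [sw_pos, sw_neg, h, h', not_false_eq_true] at he
      · exact hm.2 y y' h.1 h'.1 he
      · exact absurd (hback y' hy' (he ▸ h.2)) h'
      · exact absurd (hback y hy (he.symm ▸ h'.2)) h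
      · exact hf.2 y y' hy hy' he
  have hm' : IsM A S2 F2 (sw Y f m) := by
    constructor
    · intro y hy
      by_cases h : Y y
      · have h1 := hf.1 y (hYS y h.1 h.2)
        rw [sw_pos h]
        exact ⟨hF _ h1.1, h1.2⟩
      · rw [sw_neg h]
        exact hm.1 y hy
    · intro y y' hy hy' he
      by_cases h : Y y <;> by_cases h' : Y y' <;>
        simp only [sw_pos, sw_neg, h, h', not_false_eq_true] at he
      · exact hf.2 y y' (hYS y h.1 h.2) (hYS y' h'.1 h'.2) he
      · exact absurd ⟨hy', he ▸ Rch.step y h.1 h.2⟩ h'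
      · exact absurd ⟨hy, he.symm ▸ Rch.step y' h'.1 h'.2⟩ h
      · exact hm.2 y y' hy hy' he
  have k1 := hfm _ hf'
  have k2 := hmm _ hm'
  have s1 := swap_sum S1 Y (fun y hy => hYS y hy.1 hy.2) m f
  have s2 := swap_sum S2 Y (fun y hy => hy.1) f m
  have e : ∑ y ∈ fs Y, wt (m y) = ∑ y ∈ fs Y, wt (f y) := by omega
  have e1 : ∑ v ∈ (fs Y).image m, wt v = ∑ y ∈ fs Y, wt (m y) := by
    refine Finset.sum_image ?_
    intro y hy y' hy' he
    have h1 : Y y := mem_fs.1 hy
    have h2 : Y y' := mem_fs.1 hy'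
    exact hm.2 y y' h1.1 h2.1 he
  have e2 : ∑ v ∈ (fs Y).image f, wt v = ∑ y ∈ fs Y, wt (f y) := by
    refine Finset.sum_image ?_
    intro y hy y' hy' he
    have h1 : Y y := mem_fs.1 hy
    have h2 : Y y' := mem_fs.1 hy'
    exact hf.2 y y' (hYS y h1.1 h1.2) (hYS y' h2.1 h2.2) he
  have h5 := wt_inj (S := (fs Y).image m) (T := (fs Y).image f)
    (by rw [e1, e2, e])
  have hmem : m y0 ∈ (fs Y).image m :=
    Finset.mem_image.2 ⟨y0, mem_fs.2 ⟨hy0, Rch.base⟩, rfl⟩
  rw [h5] at hmem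
  obtain ⟨y, hy, hfy⟩ := Finset.mem_image.1 hmem
  have hy2 : Y y := mem_fs.1 hy
  exact hno y (hYS y hy2.1 hy2.2) hfy

open Classical in
/-- the number of pairs -/
noncomputable def cnt (R : V → V → Prop) : ℕ := (fp R).card

open Classical in
theorem hall_col (A U P1 P2 : V → V → Prop)
    (h1 : ∀ a, ∀ Y : Finset V, (∀ y ∈ Y, U y a) →
      Y.card ≤ (fs fun b => P1 a b ∧ ∃ y ∈ Y, A y b).card)
    (h3 : ∀ a b y z, A y b → A a z → P2 y z → P1 a b → U y a)
    (h4 : ∀ y z, P2 y z → ∃ a, A a z ∧ U y a) (z : V) (Y : Finset V) :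
    (∀ y ∈ Y, P2 y z) →
      Y.card ≤ (fs fun b => (∃ a, A a z ∧ P1 a b) ∧ ∃ y ∈ Y, A y b).card := by
  induction Y using Finset.strongInduction with
  | H Y ih =>
    intro hY
    rcases Y.eq_empty_or_nonempty with rfl | ⟨y0, hy0⟩
    · simp
    · obtain ⟨a, haz, hU⟩ := h4 y0 z (hY y0 hy0)
      have hlt : Y.filter (fun y => ¬ U y a) ⊂ Y := by
        refine Finset.filter_ssubset.2 ⟨y0, hy0, ?_⟩
        exact fun h => h hU
      have i1 := ih _ hlt (fun y hy => hY y (Finset.mem_filter.1 hy).1)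
      have i2 := h1 a (Y.filter fun y => U y a) (fun y hy => (Finset.mem_filter.1 hy).2)
      have hc := Finset.card_filter_add_card_filter_not (s := Y) (fun y => U y a)
      have hd : Disjoint
          (fs fun b => P1 a b ∧ ∃ y ∈ Y.filter (fun y => U y a), A y b)
          (fs fun b => (∃ a, A a z ∧ P1 a b) ∧ ∃ y ∈ Y.filter (fun y => ¬ U y a), A y b)
          := by
        rw [Finset.disjoint_left]
        intro b hb hb'
        obtain ⟨hb1, _⟩ := mem_fs.1 hb
        obtain ⟨_, y, hy, hyb⟩ := mem_fs.1 hb'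
        obtain ⟨hy1, hy2⟩ := Finset.mem_filter.1 hy
        exact hy2 (h3 a b y z hyb haz (hY y hy1) hb1)
      have hs := Finset.card_le_card (s := (fs fun b => P1 a b ∧
          ∃ y ∈ Y.filter (fun y => U y a), A y b) ∪ (fs fun b =>
          (∃ a, A a z ∧ P1 a b) ∧ ∃ y ∈ Y.filter (fun y => ¬ U y a), A y b))
        (t := fs fun b => (∃ a, A a z ∧ P1 a b) ∧ ∃ y ∈ Y, A y b) (by
          intro b hb
          rcases Finset.mem_union.1 hb with hb | hb
          · obtain ⟨hb1, y, hy, hyb⟩ := mem_fs.1 hb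
            exact mem_fs.2 ⟨⟨a, haz, hb1⟩, y,
              (Finset.mem_filter.1 hy).1, hyb⟩
          · obtain ⟨hb1, y, hy, hyb⟩ := mem_fs.1 hb
            exact mem_fs.2 ⟨hb1, y,
              (Finset.mem_filter.1 hy).1, hyb⟩)
      rw [Finset.card_union_of_disjoint hd] at hs
      omega

open Classical in
theorem main_lemma (A U P1 P2 : V → V → Prop)
    (h1 : ∀ a, ∀ Y : Finset V, (∀ y ∈ Y, U y a) →
      Y.card ≤ (fs fun b => P1 a b ∧ ∃ y ∈ Y, A y b).card)
    (h2 : ∀ y, ∀ Z : Finset V, (∀ a ∈ Z, U y a) →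
      Z.card ≤ (fs fun z => P2 y z ∧ ∃ a ∈ Z, A a z).card)
    (h3 : ∀ a b y z, A y b → A a z → P2 y z → P1 a b → U y a)
    (h4 : ∀ y z, P2 y z → ∃ a, A a z ∧ U y a)
    (h4' : ∀ a b, P1 a b → ∃ y, A y b ∧ U y a) :
    cnt P1 + cnt P2 ≤
      cnt (fun b z => (∃ a, A a z ∧ P1 a b) ∧ ∃ y, A y b ∧ P2 y z) + cnt U := by
  have e1 : ∀ a, ∃ f, IsM A (fun y => U y a) (fun b => P1 a b) f ∧
      ∀ g, IsM A (fun y => U y a) (fun b => P1 a b) g →
        wM (fun y => U y a) g ≤ wM (fun y => U y a) f :=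
    fun a => exists_max_M A _ _ (h1 a)
  have e2 : ∀ z, ∃ f, IsM A (fun y => P2 y z) (fun b => ∃ a, A a z ∧ P1 a b) f ∧
      ∀ g, IsM A (fun y => P2 y z) (fun b => ∃ a, A a z ∧ P1 a b) g →
        wM (fun y => P2 y z) g ≤ wM (fun y => P2 y z) f :=
    fun z => exists_max_M A _ _ (hall_col A U P1 P2 h1 h3 h4 z)
  have e3 : ∀ b, ∃ f, IsM A (fun a => P1 a b) (fun z => ∃ y, A y b ∧ P2 y z) f ∧
      ∀ g, IsM A (fun a => P1 a b) (fun z => ∃ y, A y b ∧ P2 y z) g →
        wM (fun a => P1 a b) g ≤ wM (fun a => P1 a b) f :=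
    fun b => exists_max_M A _ _ (hall_col A (fun a y => U y a) P2 P1 h2
      (fun a b y z hyb haz h21 h12 => h3 y z a b haz hyb h12 h21) h4' b)
  choose f hf hfm using e1
  choose m hm hmm using e2
  choose n hn _ using e3
  set S2 := (fp P2).image (fun p => (m p.2 p.1, p.2)) with hS2
  set S1 := (fp P1).image (fun p => (p.2, n p.2 p.1)) with hS1
  have c2 : S2.card = cnt P2 := by
    refine Finset.card_image_of_injOn ?_
    rintro ⟨y, z⟩ hp ⟨y', z'⟩ hp' he
    replace hp := mem_fp.1 (Finset.mem_coe.1 hp)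
    replace hp' := mem_fp.1 (Finset.mem_coe.1 hp')
    simp only [Prod.mk.injEq] at he
    obtain ⟨he1, rfl⟩ := he
    rw [(hm z).2 y y' hp hp' he1]
  have c1 : S1.card = cnt P1 := by
    refine Finset.card_image_of_injOn ?_
    rintro ⟨a, b⟩ hp ⟨a', b'⟩ hp' he
    replace hp := mem_fp.1 (Finset.mem_coe.1 hp)
    replace hp' := mem_fp.1 (Finset.mem_coe.1 hp')
    simp only [Prod.mk.injEq] at he
    obtain ⟨rfl, he1⟩ := he
    rw [(hn b).2 a a' hp hp' he1]
  have cT : (S1 ∪ S2).card ≤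
      cnt (fun b z => (∃ a, A a z ∧ P1 a b) ∧ ∃ y, A y b ∧ P2 y z) := by
    refine Finset.card_le_card ?_
    intro p hp
    rcases Finset.mem_union.1 hp with hp | hp
    · obtain ⟨⟨a, b⟩, hq, rfl⟩ := Finset.mem_image.1 hp
      have hq' : P1 a b := mem_fp.1 hq
      have h5 := (hn b).1 a hq'
      exact mem_fp.2 ⟨⟨a, h5.2, hq'⟩, h5.1⟩
    · obtain ⟨⟨y, z⟩, hq, rfl⟩ := Finset.mem_image.1 hp
      have hq' : P2 y z := mem_fp.1 hq
      have h5 := (hm z).1 y hq'
      exact mem_fp.2 ⟨h5.1, ⟨y, h5.2, hq'⟩⟩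
  have cI : (S1 ∩ S2).card ≤ cnt U := by
    have h6 : S1 ∩ S2 ⊆ (fp U).image
        (fun p => (f p.2 p.1, n (f p.2 p.1) p.2)) := by
      intro p hp
      obtain ⟨hp1, hp2⟩ := Finset.mem_inter.1 hp
      obtain ⟨⟨a, b⟩, hq, rfl⟩ := Finset.mem_image.1 hp1
      obtain ⟨⟨y, z⟩, hr, he⟩ := Finset.mem_image.1 hp2
      have hq' : P1 a b := mem_fp.1 hq
      have hr' : P2 y z := mem_fp.1 hr
      simp only [Prod.mk.injEq] at he
      obtain ⟨heb, hez⟩ := he
      have haz : A a z := by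
        rw [hez]
        exact ((hn b).1 a hq').2
      obtain ⟨y', hy', hfy⟩ := mono A (fun y => U y a) (fun b => P1 a b) (fun y => P2 y z)
        (fun b => ∃ a, A a z ∧ P1 a b) (f a) (m z) (hf a) (hfm a) (hm z) (hmm z)
        (fun b hb => ⟨a, haz, hb⟩) (fun y b hy hb hyb => h3 a b y z hyb haz hy hb) y hr'
        (by rw [heb]; exact hq')
      refine Finset.mem_image.2 ⟨(y', a), mem_fp.2 hy', ?_⟩
      simp only [Prod.mk.injEq]
      rw [hfy, heb]
      exact ⟨rfl, rfl⟩
    exact (Finset.card_le_card h6).trans Finset.card_image_le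
  have h7 := Finset.card_union_add_card_inter S1 S2
  omega

end Vale.Agent.P038.H606
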